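import Vale.Agent.P050.H843.Close

/-!
The closing of the two ladders, with a free number in place of `hB Q n` (after helper843).
-/

set_option linter.unusedSectionVars false

namespace Vale.Agent.P050.H903

open Finset Vale.Agent.P050.H148 Vale.Agent.P050.Cart Vale.Agent.P050.Join Vale.Agent.P050.M18
open Vale.Agent.P050.H546 Vale.Agent.P050.H843

variable {U : Type} [Fintype U] {Ω : Type} [DecidableEq U] [Fintype Ω]
  {C : U × U → U × U → ℝ} {A : U → U → ℝ}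
  {Q : U × U → ℝ} {P : Ω → ℝ} {R a b : Ω → U × U} {d e : Ω → U} {n : ℕ}

theorem closeY (hE : Edge Q) (hC : Four C Q) (hA : ∀ x y, 0 ≤ A x y)
    (hA1 : ∀ x y, Q (x, y) ≠ 0 → A x y = 1) (B : B2 Q n P R a b d e) (t : ℝ)
    (b1 : t - hB Q (n + 3) + 2 * hQ Q + 2 * h2Q Q - 2 * aQ Q - h3Q Q ≤
      ent P (fun ω => (((b ω).1, d ω, e ω), (b ω).2))) :
    0 < nh C A n ∧ (2 * n + 3) * gQ Q + 12 * hQ Q + 4 * h2Q Q - 3 * h3Q Q - 15 * aQ Q +
      t - 2 * hB Q (n + 3) ≤ Real.log (nh C A n) := by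
  -- marginals of the base
  have ma : mar P (fun ω => a ω) = Q := by
    have h1 : mar P (fun ω => a ω) = mar (mar P (fun ω => (R ω, a ω))) (fun x => x.2) := by
      funext x
      rw [mar_mar]
    rw [h1, B.la]
    exact (PP_lab hE n).snd
  have mb : mar P (fun ω => b ω) = Q := by
    have h1 : mar P (fun ω => b ω) = mar (mar P (fun ω => (R ω, b ω))) (fun x => x.2) := by
      funext x
      rw [mar_mar]
    rw [h1, B.lb]
    exact (PP_lab hE (n + 3)).snd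
  have sa : ∀ ω, P ω ≠ 0 → Q (a ω) ≠ 0 := fun ω h => by
    have := mar_ne_zero B.nn (fun ω => a ω) h
    rwa [ma] at this
  have sb : ∀ ω, P ω ≠ 0 → Q (b ω) ≠ 0 := fun ω h => by
    have := mar_ne_zero B.nn (fun ω => b ω) h
    rwa [mb] at this
  have ena : ent P (fun ω => (a ω).1) = aQ Q := by
    have h1 : ent P (fun ω => (a ω).1) = ent (mar P (fun ω => a ω)) (fun x => x.1) := by
      rw [ent_mar]
    rw [h1, ma, Edge.ent_fst hE]
  have enb : ent P (fun ω => (b ω).1) = aQ Q := by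
    have h1 : ent P (fun ω => (b ω).1) = ent (mar P (fun ω => b ω)) (fun x => x.1) := by
      rw [ent_mar]
    rw [h1, mb, Edge.ent_fst hE]
  have ene : ent P e = aQ Q := (ent_comp B.lue (fun y => y.2)).trans (C3_last hE)
  have hend : ent P d = aQ Q := (ent_comp B.ldv (fun y => y.1)).trans (C3_first hE)
  -- the copy of `u`
  set c1 : Ω → U × U × U := fun ω => ((b ω).1, d ω, e ω) with hc1
  set P1 := cop P c1 (fun ω => (b ω).2) with hP1
  have p0 : ∀ x, 0 ≤ P1 x := cop_nonneg B.nn _ _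
  have p1 : ∑ x, P1 x = 1 := cop_total B.nn _ _ B.tot
  -- the copy of `v`
  set c2' : Ω × U → U × U × U := fun x => ((a x.1).1, e x.1, d x.1) with hc2
  set P2 := cop P1 c2' (fun x => (a x.1).2) with hP2
  have q0 : ∀ x, 0 ≤ P2 x := cop_nonneg p0 _ _
  have q1 : ∑ x, P2 x = 1 := cop_total p0 _ _ p1
  have l1 : mar P1 (fun x => (c1 x.1, x.2)) = mar P (fun ω => (c1 ω, (b ω).2)) :=
    cop_law B.nn _ _
  have l2 : mar P2 (fun x => (c2' x.1, x.2)) = mar P1 (fun x => (c2' x, (a x.1).2)) :=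
    cop_law p0 _ _
  have l2' : mar P1 (fun x => (c2' x, (a x.1).2)) =
      mar P (fun ω => (((a ω).1, e ω, d ω), (a ω).2)) :=
    cop_fst B.nn _ _ (fun ω => (((a ω).1, e ω, d ω), (a ω).2))
  have l3 : mar P2 (fun x => (d x.1.1, x.2)) = mar (C3 Q) (fun x => (x.1.1, x.2)) := by
    rw [← B.ldv]
    exact mar_comp (l2.trans l2') (fun y => (y.1.2.2, y.2))
  have l4 : mar P2 (fun x => (x.1.2, e x.1.1)) = mar (C3 Q) (fun x => (x.1.1, x.2)) := by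
    rw [← B.lue]
    have h1 : mar P2 (fun x => (x.1.2, e x.1.1)) = mar P1 (fun x => (x.2, e x.1)) :=
      cop_fst p0 _ _ (fun x => (x.2, e x.1))
    rw [h1]
    exact mar_comp l1 (fun y => (y.2, y.1.2.2))
  -- the vertices `w` and `w'`
  set P3 := xat P2 (fun x => (d x.1.1, x.2)) (C3 Q) (fun x => (x.1.1, x.2)) (fun x => x.1.2)
    with hP3
  have r0 : ∀ x, 0 ≤ P3 x := xat_nonneg _ q0 hE.C3_nn
  have r1 : ∑ x, P3 x = 1 := xat_total _ q0 l3 q1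
  have l5 : mar P3 (fun x => (x.1.1.2, e x.1.1.1)) = mar (C3 Q) (fun x => (x.1.1, x.2)) := by
    rw [← l4]
    exact xat_fst _ q0 l3 (fun x => (x.1.2, e x.1.1))
  set P4 := xat P3 (fun x => (x.1.1.2, e x.1.1.1)) (C3 Q) (fun x => (x.1.1, x.2))
    (fun x => x.1.2) with hP4
  have t0 : ∀ x, 0 ≤ P4 x := xat_nonneg _ r0 hE.C3_nn
  have t1 : ∑ x, P4 x = 1 := xat_total _ r0 l5 r1
  have m4 : ∀ {γ : Type} (g : Ω → γ), mar P4 (fun x => g x.1.1.1.1) = mar P g := by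
    intro γ g
    have h1 : mar P4 (fun x => g x.1.1.1.1) = mar P3 (fun x => g x.1.1.1) :=
      xat_fst _ r0 l5 (fun x => g x.1.1.1)
    have h2 : mar P3 (fun x => g x.1.1.1) = mar P2 (fun x => g x.1.1) :=
      xat_fst _ q0 l3 (fun x => g x.1.1)
    have h3 : mar P2 (fun x => g x.1.1) = mar P1 (fun x => g x.1) :=
      cop_fst p0 _ _ (fun x => g x.1)
    have h4 : mar P1 (fun x => g x.1) = mar P g := cop_fst B.nn _ _ g
    rw [h1, h2, h3, h4]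
  -- the support
  have sP1 : ∀ x, P1 x ≠ 0 → P x.1 ≠ 0 ∧ Q ((b x.1).1, x.2) ≠ 0 ∧ Q (x.2, d x.1) ≠ 0 := by
    intro x hx
    obtain ⟨h1, ω, h2, h3, h4⟩ := cop_ne_zero B.nn _ _ hx
    have h5 := sb ω h2
    have h6 := B.sud ω h2
    simp only [hc1, Prod.mk.injEq] at h3
    refine ⟨h1, ?_, ?_⟩
    · have h7 : b ω = ((b x.1).1, x.2) := Prod.ext h3.1 h4
      rwa [h7] at h5
    · rw [h4, h3.2.1] at h6
      exact h6
  have sP2 : ∀ x, P2 x ≠ 0 → P1 x.1 ≠ 0 ∧ Q ((a x.1.1).1, x.2) ≠ 0 ∧ Q (x.2, e x.1.1) ≠ 0 := by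
    intro x hx
    obtain ⟨h1, ω, h2, h3, h4⟩ := cop_ne_zero p0 _ _ hx
    have h2' := (sP1 ω h2).1
    have h5 := sa ω.1 h2'
    have h6 := B.sve ω.1 h2'
    simp only [hc2, Prod.mk.injEq] at h3
    refine ⟨h1, ?_, ?_⟩
    · have h7 : a ω.1 = ((a x.1.1).1, x.2) := Prod.ext h3.1 h4
      rwa [h7] at h5
    · rw [h4, h3.2.1] at h6
      exact h6
  have sP3 : ∀ x, P3 x ≠ 0 → P2 x.1 ≠ 0 ∧ Q (x.2, d x.1.1.1) ≠ 0 ∧ Q (x.2, x.1.2) ≠ 0 := by
    intro x hx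
    obtain ⟨h1, y, h2, h3, h4⟩ := xat_ne_zero _ q0 hE.C3_nn hx
    obtain ⟨h5, h6⟩ := C3_ne h2
    simp only [Prod.mk.injEq] at h3
    refine ⟨h1, ?_, ?_⟩
    · rw [hE.sym, ← h3.1, ← h4]
      exact h5
    · rw [← h4, ← h3.2]
      exact h6
  have sP4 : ∀ x, P4 x ≠ 0 → P3 x.1 ≠ 0 ∧ Q (x.2, x.1.1.1.2) ≠ 0 ∧
      Q (x.2, e x.1.1.1.1) ≠ 0 := by
    intro x hx
    obtain ⟨h1, y, h2, h3, h4⟩ := xat_ne_zero _ r0 hE.C3_nn hx
    obtain ⟨h5, h6⟩ := C3_ne h2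
    simp only [Prod.mk.injEq] at h3
    refine ⟨h1, ?_, ?_⟩
    · rw [hE.sym, ← h3.1, ← h4]
      exact h5
    · rw [← h4, ← h3.2]
      exact h6
  -- the weight on the support
  set f : ((((Ω × U) × U) × U) × U) →
      (U × U) × (U × U) × (U × U) × (U × U) × (U × U) × U × U :=
    fun x => (R x.1.1.1.1, (x.1.1.2, e x.1.1.1.1), (x.1.1.1.2, d x.1.1.1.1), a x.1.1.1.1,
      b x.1.1.1.1, x.1.2, x.2) with hf
  have hz : ∀ x, P4 x ≠ 0 → zp C n (R x.1.1.1.1) (a x.1.1.1.1) ≠ 0 ∧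
      zp C (n + 3) (R x.1.1.1.1) (b x.1.1.1.1) ≠ 0 ∧
      wt C A n (f x) = zp C n (R x.1.1.1.1) (a x.1.1.1.1) *
        zp C (n + 3) (R x.1.1.1.1) (b x.1.1.1.1) := by
    intro x hx
    obtain ⟨g3, g4, g5⟩ := sP4 x hx
    obtain ⟨g2, g6, g7⟩ := sP3 x.1 g3
    obtain ⟨g1, g8, g9⟩ := sP2 x.1.1 g2
    obtain ⟨g0, g10, g11⟩ := sP1 x.1.1.1 g1
    have h1 := mar_ne_zero B.nn (fun ω => (R ω, a ω)) g0
    rw [B.la] at h1
    have h2 := mar_ne_zero B.nn (fun ω => (R ω, b ω)) g0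
    rw [B.lb] at h2
    have h3 := (st_PP hE hC n).sup _ h1
    have h4 := (st_PP hE hC (n + 3)).sup _ h2
    refine ⟨h3, h4, ?_⟩
    have k1 : C (a x.1.1.1.1) (x.1.1.2, e x.1.1.1.1) = 1 :=
      hC.c1 (a x.1.1.1.1).1 (a x.1.1.1.1).2 (e x.1.1.1.1) x.1.1.2 (sa _ g0) (B.sve _ g0) g8 g9
    have k2 : C (b x.1.1.1.1) (x.1.1.1.2, d x.1.1.1.1) = 1 :=
      hC.c1 (b x.1.1.1.1).1 (b x.1.1.1.1).2 (d x.1.1.1.1) x.1.1.1.2 (sb _ g0) (B.sud _ g0)
        g10 g11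
    have k3 : A x.1.2 (d x.1.1.1.1) = 1 := hA1 _ _ g6
    have k4 : A x.1.2 x.1.1.2 = 1 := hA1 _ _ g7
    have k5 : A x.2 x.1.1.1.2 = 1 := hA1 _ _ g4
    have k6 : A x.2 (e x.1.1.1.1) = 1 := hA1 _ _ g5
    unfold wt
    simp only [hf]
    rw [k1, k2, k3, k4, k5, k6]
    ring
  have key := ent_log_sum t0 t1 f (wt C A n) (fun y => by
      unfold wt
      exact mul_nonneg (mul_nonneg (mul_nonneg (zp_nonneg hC.c0 _ _ _) (hC.c0 _ _))
        (mul_nonneg (zp_nonneg hC.c0 _ _ _) (hC.c0 _ _)))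
        (mul_nonneg (mul_nonneg (hA _ _) (hA _ _)) (mul_nonneg (hA _ _) (hA _ _))))
    (fun x hx => by
      obtain ⟨h1, h2, h3⟩ := hz x hx
      rw [h3]
      exact mul_ne_zero h1 h2)
  rw [sum_wt] at key
  refine ⟨key.1, ?_⟩
  have key2 := key.2
  -- the mean of the logarithm
  have e1 : ∑ x, P4 x * Real.log (wt C A n (f x)) =
      ∑ x, PP Q n x * Real.log (zp C n x.1 x.2) +
        ∑ x, PP Q (n + 3) x * Real.log (zp C (n + 3) x.1 x.2) := by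
    have e3 : ∀ x, P4 x * Real.log (wt C A n (f x)) =
        P4 x * Real.log (zp C n (R x.1.1.1.1) (a x.1.1.1.1)) +
        P4 x * Real.log (zp C (n + 3) (R x.1.1.1.1) (b x.1.1.1.1)) := by
      intro x
      by_cases hx : P4 x = 0
      · rw [hx]; ring
      obtain ⟨h1, h2, h3⟩ := hz x hx
      rw [h3, Real.log_mul h1 h2]
      ring
    rw [Finset.sum_congr rfl fun x _ => e3 x, Finset.sum_add_distrib]
    have e4 := sum_mar P4 (fun x => (R x.1.1.1.1, a x.1.1.1.1))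
      (fun y => Real.log (zp C n y.1 y.2))
    have e5 := sum_mar P4 (fun x => (R x.1.1.1.1, b x.1.1.1.1))
      (fun y => Real.log (zp C (n + 3) y.1 y.2))
    rw [m4 (fun ω => (R ω, a ω)), B.la] at e4
    rw [m4 (fun ω => (R ω, b ω)), B.lb] at e5
    rw [← e4, ← e5]
  have v1 := (st_PP hE hC n).va
  have v2 := (st_PP hE hC (n + 3)).va
  unfold Vale.Agent.P050.M18.val at v1 v2
  have v3 : ent (PP Q n) (fun x => (x.1, x.2)) = hP Q n := rfl
  have v4 : ent (PP Q (n + 3)) (fun x => (x.1, x.2)) = hP Q (n + 3) := rfl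
  rw [v3] at v1
  rw [v4] at v2
  -- the entropies
  have f1 := cop_ent B.nn c1 (fun ω => (b ω).2) (fun ω => (R ω, a ω, b ω, d ω, e ω))
    (fun z => (z.2.2.1.1, z.2.2.2.1, z.2.2.2.2)) (fun _ => rfl)
  rw [← hP1] at f1
  have f2 := cop_ent p0 c2' (fun x => (a x.1).2)
    (fun x => ((R x.1, a x.1, b x.1, d x.1, e x.1), x.2))
    (fun z => (z.1.2.1.1, z.1.2.2.2.2, z.1.2.2.2.1)) (fun _ => rfl)
  rw [← hP2] at f2
  have f3 := xat_ent (fun x : (U × U) × U => x.1.2) q0 hE.C3_nn l3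
    (fun x => (((R x.1.1, a x.1.1, b x.1.1, d x.1.1, e x.1.1), x.1.2), x.2))
    (fun z => (z.1.1.2.2.2.1, z.2)) (fun _ => rfl)
  rw [← hP3] at f3
  have f4 := xat_ent (fun x : (U × U) × U => x.1.2) r0 hE.C3_nn l5
    (fun x => ((((R x.1.1.1, a x.1.1.1, b x.1.1.1, d x.1.1.1, e x.1.1.1), x.1.1.2), x.1.2),
      x.2))
    (fun z => (z.1.1.2, z.1.1.1.2.2.2.2)) (fun _ => rfl)
  rw [← hP4] at f4
  have f5 : ent P4 f = ent P4 (fun x => (((((R x.1.1.1.1, a x.1.1.1.1, b x.1.1.1.1,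
      d x.1.1.1.1, e x.1.1.1.1), x.1.1.1.2), x.1.1.2), x.1.2), x.2)) :=
    ent_same _ fun x y => by
      simp only [hf, Prod.mk.injEq]
      tauto
  have f6 : ent P c1 ≤ 3 * aQ Q := three_le B.nn B.tot enb hend ene
  have f7 : ent P1 c2' ≤ 3 * aQ Q := by
    have h1 : ent P1 c2' = ent P (fun ω => ((a ω).1, e ω, d ω)) :=
      cop_ent_fst B.nn _ _ (fun ω => ((a ω).1, e ω, d ω))
    rw [h1]
    exact three_le B.nn B.tot ena ene hend
  have f8 : ent P1 (fun x => (c2' x, (a x.1).2)) =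
      ent P (fun ω => (((a ω).1, e ω, d ω), (a ω).2)) :=
    cop_ent_fst B.nn _ _ (fun ω => (((a ω).1, e ω, d ω), (a ω).2))
  have f9 := C3_mid hE
  have f10 : ent (C3 Q) (fun x => (x.1.1, x.2)) = h2Q Q := rfl
  have b0 := B.ent
  have b2 := B.e2
  rw [f8] at f2
  rw [f9, f10] at f3 f4
  rw [e1, f5] at key2
  push_cast at v2
  linarith


end Vale.Agent.P050.H903
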