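import Vale.Agent.P050.H903.Nine
import Vale.Agent.P050.H222.F

/-!
The Moebius ladder with `k ≥ 9` rungs (`k` odd), without a rung: densities (after helper222).
-/

set_option linter.unusedSectionVars false

namespace Vale.Agent.P050.H903

open Finset Vale.Agent.P050.Cart Vale.Agent.P050.Join Vale.Agent.P050.H148 Vale.Agent.P050.H180
open Vale.Agent.P050.M18 Vale.Agent.P050.H546 Vale.Agent.P050.H222

/-- the entropy side, all chains of at least one step -/
theorem ent_all {U : Type} [Fintype U] [DecidableEq U] {C : U × U → U × U → ℝ}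
    {A : U → U → ℝ} {Q : U × U → ℝ} (hE : Edge Q) (hC : Four C Q) (hA0 : ∀ x y, 0 ≤ A x y)
    (hA1 : ∀ x y, Q (x, y) ≠ 0 → A x y = 1) (n : ℕ) (hn : 1 ≤ n) :
    0 < nh C A n ∧ (6 * n + 20) * hQ Q - (8 * n + 26) * aQ Q ≤ Real.log (nh C A n) := by
  rcases Nat.lt_or_ge 1 n with h | h
  · exact entropy baseStmt H762.mid H843.closeStmt U C A Q hE hC hA0 hA1 n h
  · have : n = 1 := le_antisymm h hn
    subst this
    obtain ⟨h1, h2⟩ := ent_one hE hC hA0 hA1
    refine ⟨h1, le_trans (le_of_eq ?_) h2⟩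
    push_cast
    ring

/-- **The Moebius ladder without a rung is Sidorenko, for every odd `k ≥ 9`.** -/
theorem final (X : Type) [Fintype X] [Nonempty X] (G : SimpleGraph X) (k : ℕ) (hk : Odd k)
    (hk9 : 9 ≤ k) : edgeDensity G ^ (3 * k - 1) ≤ homDensity (rungless k) G := by
  classical
  rcases (edge_nn G).lt_or_eq with hp | hp
  swap
  · rw [← hp, zero_pow (by omega)]
    exact hom_nn G _
  obtain ⟨n, rfl⟩ : ∃ n, k = 2 * n + 7 := by
    obtain ⟨r, rfl⟩ := hk
    exact ⟨r - 3, by omega⟩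
  have hn1 : 1 ≤ n := by omega
  have hG := exists_adj G hp
  have hn := card_pos' (X := X)
  obtain ⟨h1, h2⟩ := ent_all (C := CG G) (A := adj G) (ue_edge G hG) (ue_four G)
    (M18.adj_nn G) (fun x y h => ue_ne G h) n hn1
  have h3 : nh (CG G) (adj G) n = homDensity (rungless (2 * n + 7)) G *
      (Fintype.card X : ℝ) ^ (2 * (2 * n + 7)) := by
    rw [← nh_eq]
    exact (graph X G (2 * n + 5) ⟨n + 2, by ring⟩).symm
  rw [h3] at h1 h2
  have ht : 0 < homDensity (rungless (2 * n + 7)) G := by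
    rcases (hom_nn G (rungless (2 * n + 7))).lt_or_eq with h | h
    · exact h
    · rw [← h, zero_mul] at h1
      exact absurd h1 (lt_irrefl _)
  have h4 := ue_aQ G hG
  have h5 : hQ (ue G) = Real.log (edgeDensity G) + 2 * Real.log (Fintype.card X) := by
    rw [ue_hQ G hG]
    unfold de
    rw [Fintype.sum_prod_type]
    simp only
    rw [adj_sum', Real.log_mul hp.ne' (by positivity), Real.log_pow]
    push_cast
    ring
  rw [h5, Real.log_mul ht.ne' (by positivity), Real.log_pow] at h2
  push_cast at h2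
  have h6 : (8 * (n : ℝ) + 26) * aQ (ue G) ≤ (8 * n + 26) * Real.log (Fintype.card X) :=
    mul_le_mul_of_nonneg_left h4 (by positivity)
  rw [← Real.log_le_log_iff (by positivity) ht, Real.log_pow]
  have h7 : ((3 * (2 * n + 7) - 1 : ℕ) : ℝ) = 6 * n + 20 := by
    rw [show 3 * (2 * n + 7) - 1 = 6 * n + 20 by omega]
    push_cast
    ring
  rw [h7]
  linarith

end Vale.Agent.P050.H903
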