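import Vale.Agent.P050.H546.Base

/-!
The case of one step: the law of the centre vertex `z`, of `v` and of `d_m` is that of a cherry.
-/

set_option linter.unusedSectionVars false

namespace Vale.Agent.P050.H903

open Finset Vale.Agent.P050.Cart Vale.Agent.P050.Join Vale.Agent.P050.M18
open Vale.Agent.P050.H546

variable {U : Type} [Fintype U]

/-- three steps of the walk on the vertices -/
noncomputable def nb3 (Q : U × U → ℝ) (v u : U) : ℝ :=
  ∑ y, (∑ y', nb Q v y' * nb Q y' y) * nb Q y u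

variable {Q : U × U → ℝ} (hE : Edge Q)

theorem mar_pairs (P : (U × U) × (U × U) → ℝ) (s s' v : U) :
    mar P (fun x => ((x.1.1, x.2.1), x.2.2)) ((s, s'), v) = ∑ z, P ((s, z), (s', v)) := by
  classical
  unfold mar
  rw [Fintype.sum_prod_type, Fintype.sum_prod_type, Finset.sum_eq_single s]
  · refine Finset.sum_congr rfl fun z _ => ?_
    rw [Fintype.sum_prod_type, Finset.sum_eq_single s']
    · rw [Finset.sum_eq_single v]
      · simp
      · intro v' _ hv
        rw [if_neg]
        simp only [Prod.mk.injEq, true_and]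
        exact hv
      · intro hn; exact absurd (mem_univ _) hn
    · intro t _ ht
      refine Finset.sum_eq_zero fun v' _ => ?_
      rw [if_neg]
      simp only [Prod.mk.injEq, true_and, not_and]
      exact fun hh => absurd hh ht
    · intro hn; exact absurd (mem_univ _) hn
  · intro t _ ht
    refine Finset.sum_eq_zero fun z _ => Finset.sum_eq_zero fun e _ => ?_
    rw [if_neg]
    simp only [Prod.mk.injEq, not_and]
    exact fun hh => absurd hh.1 ht
  · intro hn; exact absurd (mem_univ _) hn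

theorem mar_mid (P : (U × U) × (U × U) → ℝ) (z v : U) :
    mar P (fun x => (x.1.2, x.2.2)) (z, v) = ∑ s, ∑ s', P ((s, z), (s', v)) := by
  classical
  unfold mar
  rw [Fintype.sum_prod_type, Fintype.sum_prod_type]
  refine Finset.sum_congr rfl fun s _ => ?_
  rw [Finset.sum_eq_single z]
  · rw [Fintype.sum_prod_type]
    refine Finset.sum_congr rfl fun s' _ => ?_
    rw [Finset.sum_eq_single v]
    · simp
    · intro v' _ hv
      rw [if_neg]
      simp only [Prod.mk.injEq, true_and]
      exact hv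
    · intro hn; exact absurd (mem_univ _) hn
  · intro z' _ hz
    refine Finset.sum_eq_zero fun e _ => ?_
    rw [if_neg]
    simp only [Prod.mk.injEq, not_and]
    exact fun hh => absurd hh hz
  · intro hn; exact absurd (mem_univ _) hn

theorem mar_diag {Ω : Type} [Fintype Ω] (P : Ω → ℝ) (z v : Ω → U) (z0 v0 y : U) [DecidableEq U] :
    mar P (fun ω => ((z ω, v ω), v ω)) ((z0, v0), y) =
      if v0 = y then mar P (fun ω => (z ω, v ω)) (z0, v0) else 0 := by
  classical
  unfold mar
  split_ifs with h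
  · subst h
    refine Finset.sum_congr rfl fun ω _ => ?_
    congr 1
    simp only [Prod.mk.injEq, eq_iff_iff]
    tauto
  · refine Finset.sum_eq_zero fun ω _ => ?_
    rw [if_neg]
    simp only [Prod.mk.injEq, not_and]
    rintro ⟨-, h1⟩ h2
    exact h (h1.symm.trans h2)

include hE

/-- the law of the first rung and of the last vertex of a chain with one step -/
theorem PP1_cherry [DecidableEq U] : mar (PP Q 1) (fun x => ((x.1.1, x.2.1), x.2.2)) = C3 Q := by
  funext ⟨⟨s, s'⟩, v⟩
  rw [mar_pairs]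
  have h1 : ∀ z, PP Q 1 ((s, z), (s', v)) = C3 Q ((s, z), v) * kap Q (s, v) s' := by
    intro z
    rw [PP_apply hE, zp_one]
    unfold kk
    rw [hE.C3_val]
    ring
  rw [Finset.sum_congr rfl fun z _ => h1 z, ← Finset.sum_mul, ← hE.C3_13, hE.kap_val]
  by_cases h0 : mar (C3 Q) (fun x => (x.1.1, x.2)) (s, v) = 0
  · have h2 := hE.C3_13 s v
    rw [h0] at h2
    have h3 := (Finset.sum_eq_zero_iff_of_nonneg fun y _ => hE.C3_nn ((s, y), v)).1 h2.symm s'
      (mem_univ _)
    rw [h0, h3]
    simp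
  · field_simp

/-- the law of the second vertices of a chain with one step -/
theorem PP1_mid [DecidableEq U] : mar (PP Q 1) (fun x => (x.1.2, x.2.2)) = Q := by
  funext ⟨z, v⟩
  rw [mar_mid]
  have h1 : ∀ s, ∑ s', PP Q 1 ((s, z), (s', v)) = Q (s, z) * nb Q z v := by
    intro s
    have h2 : ∀ s', PP Q 1 ((s, z), (s', v)) = (Q (s, z) * nb Q z v) * kap Q (s, v) s' := by
      intro s'
      rw [PP_apply hE, zp_one]
      unfold kk
      ring
    rw [Finset.sum_congr rfl fun s' _ => h2 s', ← Finset.mul_sum]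
    by_cases h0 : Q (s, z) * nb Q z v = 0
    · rw [h0, zero_mul]
    · have h3 : mar (C3 Q) (fun x => (x.1.1, x.2)) (s, v) ≠ 0 := by
        have h4 : C3 Q ((s, z), v) ≠ 0 := h0
        exact mar_ne_zero hE.C3_nn (fun x => (x.1.1, x.2)) (ω := ((s, z), v)) h4
      have h5 : ∑ s', kap Q (s, v) s' = 1 := sum_ker _ _ h3
      rw [h5, mul_one]
  rw [Finset.sum_congr rfl fun s _ => h1 s, ← Finset.sum_mul]
  have h6 : ∑ s, Q (s, z) = mm Q z := by
    unfold mm
    exact Finset.sum_congr rfl fun s _ => hE.sym _ _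
  rw [h6, hE.mm_mul_nb]

/-- the law of `(z, v)` and of the end of the walk of length 3 from `v` -/
theorem Pd_zvu [DecidableEq U] (z0 v0 u0 : U) :
    mar (Pd Q 1) (fun x => ((x.1.1.1.1.1.2, x.1.1.1.1.2.2), x.1.2)) ((z0, v0), u0) =
      Q (z0, v0) * nb3 Q v0 u0 := by
  have h1 := Pd_fst hE 1 (fun x => ((x.1.1.1.1.2, x.1.1.1.2.2), x.2))
  have h2 := a3_lab (Q := Q) (P := PP Q 1) (v := fun x => x.2.2) (fun x => (x.1.2, x.2.2))
    (z0, v0) u0
  have h3 : mar (Pd Q 1) (fun x => ((x.1.1.1.1.1.2, x.1.1.1.1.2.2), x.1.2)) ((z0, v0), u0) =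
      mar (a3 Q (PP Q 1) (fun x => x.2.2)) (fun x => ((fun x : (U × U) × (U × U) =>
        (x.1.2, x.2.2)) x.1.1.1, x.2)) ((z0, v0), u0) := congrFun h1 _
  rw [h3, h2]
  have h4 : ∀ y, mar (PP Q 1) (fun x => ((x.1.2, x.2.2), x.2.2)) ((z0, v0), y) =
      if v0 = y then Q (z0, v0) else 0 := by
    intro y
    rw [mar_diag (PP Q 1) (fun x => x.1.2) (fun x => x.2.2), PP1_mid hE]
  have h5 : ∀ y', ∑ y'', mar (PP Q 1) (fun x => ((x.1.2, x.2.2), x.2.2)) ((z0, v0), y'') *
      nb Q y'' y' = Q (z0, v0) * nb Q v0 y' := by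
    intro y'
    rw [Finset.sum_congr rfl fun y'' _ => by rw [h4 y'']]
    simp
  unfold nb3
  rw [Finset.mul_sum]
  refine Finset.sum_congr rfl fun y _ => ?_
  rw [Finset.sum_congr rfl fun y' _ => by rw [h5 y']]
  rw [← mul_assoc, Finset.mul_sum]
  congr 1
  refine Finset.sum_congr rfl fun y' _ => ?_
  ring

end Vale.Agent.P050.H903
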