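import Vale.Agent.P050.H903.Law

/-!
The law of `(z, v, d_m)` is that of a cherry.
-/

set_option linter.unusedSectionVars false

namespace Vale.Agent.P050.H903

open Finset Vale.Agent.P050.Cart Vale.Agent.P050.Join Vale.Agent.P050.M18
open Vale.Agent.P050.H546

variable {U : Type} [Fintype U] {Q : U × U → ℝ} (hE : Edge Q)

/-- the law of the ends of a walk of length 3 -/
theorem W3_ends (hE : Edge Q) (u0 v0 : U) :
    mar (W3 Q) (fun x => (x.1.1.1, x.2)) (u0, v0) = mm Q v0 * nb3 Q v0 u0 := by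
  rw [← W3_30 hE]
  have e1 : mar (W3 Q) (fun x => (x.2, x.1.1.1)) (u0, v0) =
      mar (W3 Q) (fun x => (x.1.1.1, x.2)) (v0, u0) :=
    mar_inj (W3 Q) (fun x => (x.1.1.1, x.2)) (e := fun y : U × U => (y.2, y.1)) (fun a b hab => by
      simp only [Prod.mk.injEq] at hab
      exact Prod.ext hab.2 hab.1) (v0, u0)
  rw [e1]
  have h1 := att_mar2 (C3 Q) (fun x => x.2) (nb Q) (fun x => x.1.1) v0 u0
  have h2 : mar (W3 Q) (fun x => (x.1.1.1, x.2)) (v0, u0) =
      ∑ d, mar (C3 Q) (fun ω => (ω.1.1, ω.2)) (v0, d) * nb Q d u0 := h1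
  rw [h2]
  unfold nb3
  rw [Finset.mul_sum]
  refine Finset.sum_congr rfl fun y _ => ?_
  rw [hE.C3_13, ← mul_assoc, Finset.mul_sum]
  congr 1
  refine Finset.sum_congr rfl fun y' _ => ?_
  rw [hE.C3_val, ← hE.mm_mul_nb v0 y']
  ring

/-- a sum over the first vertex -/
theorem W3_sum (hE : Edge Q) (v0 e0 : U) :
    ∑ u, mar (W3 Q) (fun x => ((x.1.1.1, x.2), x.1.2)) ((u, v0), e0) = Q (v0, e0) := by
  classical
  have h1 : Q (v0, e0) =
      mar (mar (W3 Q) (fun x => ((x.1.1.1, x.2), x.1.2))) (fun y => (y.1.2, y.2)) (v0, e0) := by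
    rw [mar_mar]
    exact (congrFun (W3_32 hE) (v0, e0)).symm
  rw [h1]
  generalize mar (W3 Q) (fun x => ((x.1.1.1, x.2), x.1.2)) = F
  unfold mar
  rw [Fintype.sum_prod_type, Fintype.sum_prod_type]
  refine Finset.sum_congr rfl fun u _ => ?_
  rw [Finset.sum_eq_single v0]
  · rw [Finset.sum_eq_single e0]
    · simp
    · intro e _ he
      rw [if_neg]
      simp only [Prod.mk.injEq, true_and]
      exact he
    · intro hn; exact absurd (mem_univ _) hn
  · intro v _ hv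
    refine Finset.sum_eq_zero fun e _ => ?_
    rw [if_neg]
    simp only [Prod.mk.injEq, not_and]
    exact fun hh => absurd hh hv
  · intro hn; exact absurd (mem_univ _) hn

theorem W3_ker (hE : Edge Q) (u0 v0 e0 : U) :
    mar (W3 Q) (fun x => (x.1.1.1, x.2)) (u0, v0) *
      ker (W3 Q) (fun x => (x.1.1.1, x.2)) (fun x => x.1.2) (u0, v0) e0 =
      mar (W3 Q) (fun x => ((x.1.1.1, x.2), x.1.2)) ((u0, v0), e0) := by
  unfold ker
  by_cases h0 : mar (W3 Q) (fun x => (x.1.1.1, x.2)) (u0, v0) = 0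
  · have h1 := mar_fst (W3 Q) (fun x => (x.1.1.1, x.2)) (fun x => x.1.2) (u0, v0)
    rw [h0] at h1
    have h2 := (Finset.sum_eq_zero_iff_of_nonneg fun e _ => mar_nonneg (W3_nn hE) _ _).1 h1 e0
      (mem_univ _)
    rw [h0, h2]
    simp
  · field_simp

/-- the law of `(z, v, e)`, if `e` is attached given `(u, v)` -/
theorem zve (hE : Edge Q) {Ω : Type} [Fintype Ω] {P : Ω → ℝ} {z v u : Ω → U}
    (h : ∀ z0 v0 u0, mar P (fun ω => ((z ω, v ω), u ω)) ((z0, v0), u0) =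
      Q (z0, v0) * nb3 Q v0 u0) :
    mar (xat P (fun ω => (u ω, v ω)) (W3 Q) (fun x => (x.1.1.1, x.2)) (fun x => x.1.2))
      (fun x => ((z x.1, v x.1), x.2)) = C3 Q := by
  classical
  funext ⟨⟨z0, v0⟩, e0⟩
  have h1 := att_mar2 P (fun ω => (u ω, v ω))
    (ker (W3 Q) (fun x => (x.1.1.1, x.2)) (fun x => x.1.2)) (fun ω => (z ω, v ω)) (z0, v0) e0
  have h2 : mar (xat P (fun ω => (u ω, v ω)) (W3 Q) (fun x => (x.1.1.1, x.2)) (fun x => x.1.2))
      (fun x => ((z x.1, v x.1), x.2)) ((z0, v0), e0) =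
      ∑ d, mar P (fun ω => ((z ω, v ω), (u ω, v ω))) ((z0, v0), d) *
        ker (W3 Q) (fun x => (x.1.1.1, x.2)) (fun x => x.1.2) d e0 := h1
  rw [h2, Fintype.sum_prod_type]
  have h3 : ∀ u0 v1, mar P (fun ω => ((z ω, v ω), (u ω, v ω))) ((z0, v0), (u0, v1)) =
      if v0 = v1 then Q (z0, v0) * nb3 Q v0 u0 else 0 := by
    intro u0 v1
    split_ifs with hv
    · subst hv
      rw [← h z0 v0 u0]
      unfold mar
      refine Finset.sum_congr rfl fun ω _ => ?_
      congr 1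
      simp only [Prod.mk.injEq, eq_iff_iff]
      tauto
    · unfold mar
      refine Finset.sum_eq_zero fun ω _ => ?_
      rw [if_neg]
      simp only [Prod.mk.injEq, not_and]
      rintro ⟨-, h4⟩ - h5
      exact hv (h4.symm.trans h5)
  have h4 : ∀ u0, ∑ v1, mar P (fun ω => ((z ω, v ω), (u ω, v ω))) ((z0, v0), (u0, v1)) *
      ker (W3 Q) (fun x => (x.1.1.1, x.2)) (fun x => x.1.2) (u0, v1) e0 =
      nb Q v0 z0 * mar (W3 Q) (fun x => ((x.1.1.1, x.2), x.1.2)) ((u0, v0), e0) := by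
    intro u0
    rw [Finset.sum_eq_single v0]
    · rw [h3, if_pos rfl, ← W3_ker hE, W3_ends hE]
      have h5 : Q (z0, v0) = nb Q v0 z0 * mm Q v0 := by
        rw [mul_comm, hE.mm_mul_nb, hE.sym]
      rw [h5]
      ring
    · intro v1 _ hv
      rw [h3, if_neg (Ne.symm hv), zero_mul]
    · intro hn; exact absurd (mem_univ _) hn
  rw [Finset.sum_congr rfl fun u0 _ => h4 u0, ← Finset.mul_sum, W3_sum hE]
  have h6 : C3 Q ((z0, v0), e0) = Q (z0, v0) * nb Q v0 e0 := rfl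
  rw [h6]
  unfold nb
  rw [hE.sym z0 v0]
  ring

end Vale.Agent.P050.H903
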