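import Vale.Agent.P050.H903.Law2
import Vale.Agent.P050.H903.CloseY
import Vale.Agent.P050.H762.Mid
import Vale.Agent.P050.H222.Glue

/-!
The Moebius ladder with nine rungs, without a rung.
-/

set_option linter.unusedSectionVars false

namespace Vale.Agent.P050.H903

open Finset Vale.Agent.P050.H148 Vale.Agent.P050.Cart Vale.Agent.P050.Join Vale.Agent.P050.M18
open Vale.Agent.P050.H546 Vale.Agent.P050.H180

section e1

variable {U : Type} [Fintype U] {Ω : Type} [Fintype Ω] {Q : U × U → ℝ} {P : Ω → ℝ}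
  {R a b : Ω → U × U} {d e : Ω → U}

/-- the bound for the first copy, for one step -/
theorem e1_one [DecidableEq U] (hE : Edge Q) (B : B2 Q 1 P R a b d e)
    (hl : mar P (fun ω => (((R ω).2, (a ω).2), e ω)) = C3 Q) :
    (hQ Q + h2Q Q - aQ Q) - hB Q 4 + 2 * hQ Q + 2 * h2Q Q - 2 * aQ Q - h3Q Q ≤
      ent P (fun ω => (((b ω).1, d ω, e ω), (b ω).2)) := by
  have h0 := B.ent
  have h1 := hP_one hE
  -- the law of `(s_c, s', v)`
  have l1 : mar P (fun ω => (((R ω).1, (a ω).1), (a ω).2)) = C3 Q := by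
    have h2 : mar P (fun ω => (((R ω).1, (a ω).1), (a ω).2)) =
        mar (mar P (fun ω => (R ω, a ω))) (fun x => ((x.1.1, x.2.1), x.2.2)) := by
      funext x
      rw [mar_mar]
    rw [h2, B.la, PP1_cherry hE]
  have entC : ∀ {f : Ω → (U × U) × U}, mar P f = C3 Q → ent P f = 2 * hQ Q - aQ Q ∧
      ent P (fun ω => ((f ω).1.1, (f ω).2)) = h2Q Q := by
    intro f hf
    constructor
    · rw [← Lab.C3_ent hE]
      refine ent_law fun x => ?_
      rw [hf, mar_id]
    · have h3 := ent_mar P f (fun x => (x.1.1, x.2))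
      rw [hf] at h3
      rw [← h3]
      rfl
  obtain ⟨c1, c2⟩ := entC l1
  obtain ⟨c3, c4⟩ := entC hl
  simp only at c1 c2 c3 c4
  -- `(R, b)` and `b`
  have l2 : ent P (fun ω => (R ω, b ω)) = hP Q 4 := by
    unfold hP
    refine ent_law fun x => ?_
    rw [B.lb, mar_id]
  have l3 : ent P b = hQ Q := by
    have h3 : mar P b = mar (mar P (fun ω => (R ω, b ω))) (fun x => x.2) := by
      funext x
      rw [mar_mar]
    unfold hQ
    refine ent_law fun x => ?_
    rw [h3, B.lb, (PP_lab hE 4).snd, mar_id]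
  -- remove `s'`
  have s1 := subm B.nn (A := fun ω => (R ω, (a ω).2, b ω, d ω, e ω))
    (B := fun ω => (((R ω).1, (a ω).1), (a ω).2))
    (C := fun ω => (R ω, a ω, b ω, d ω, e ω))
    (D := fun ω => ((R ω).1, (a ω).2)) (fun x y => by
      simp only [Prod.ext_iff]
      tauto) (fun x y => by
      simp only [Prod.ext_iff]
      tauto) (fun x y => by
      simp only [Prod.ext_iff]
      tauto)
  -- remove `v`
  have s2 := subm B.nn (A := fun ω => (R ω, b ω, d ω, e ω))
    (B := fun ω => (((R ω).2, (a ω).2), e ω))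
    (C := fun ω => (R ω, (a ω).2, b ω, d ω, e ω))
    (D := fun ω => ((R ω).2, e ω)) (fun x y => by
      simp only [Prod.ext_iff]
      tauto) (fun x y => by
      simp only [Prod.ext_iff]
      tauto) (fun x y => by
      simp only [Prod.ext_iff]
      tauto)
  -- remove `R`
  have s3 := subm B.nn (A := fun ω => (((b ω).1, d ω, e ω), (b ω).2))
    (B := fun ω => (R ω, b ω))
    (C := fun ω => (R ω, b ω, d ω, e ω))
    (D := b) (fun x y => by
      simp only [Prod.ext_iff]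
      tauto) (fun x y => by
      simp only [Prod.ext_iff]
      tauto) (fun x y => by
      simp only [Prod.ext_iff]
      tauto)
  have hg : gQ Q = 3 * hQ Q - 2 * aQ Q - h2Q Q := rfl
  rw [c1, c2] at s1
  rw [c3, c4] at s2
  rw [l2, l3] at s3
  have h4 : hP Q (1 + 3) = hP Q 4 := rfl
  have h5 : hB Q (1 + 3) = hB Q 4 := rfl
  rw [h1, hg, h4, h5] at h0
  linarith

end e1

/-- the entropy side for one step -/
theorem ent_one {U : Type} [Fintype U] [DecidableEq U] {C : U × U → U × U → ℝ}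
    {A : U → U → ℝ} {Q : U × U → ℝ} (hE : Edge Q) (hC : Four C Q) (hA0 : ∀ x y, 0 ≤ A x y)
    (hA1 : ∀ x y, Q (x, y) ≠ 0 → A x y = 1) :
    0 < nh C A 1 ∧ 26 * hQ Q - 34 * aQ Q ≤ Real.log (nh C A 1) := by
  have h2 := H762.mid U _ Q (Pd Q 1) _ _ _ 1 hE (base hE 1)
  have hP := Pd_nn hE 1
  have hm := (base hE 1).luv
  have f1 : ∀ {α : Type} (g : (((((U × U) × (U × U)) × U) × U) × U) × U → α),
      mar (xat (Pd Q 1) (fun x => (x.1.2, x.1.1.1.1.2.2)) (W3 Q) (fun x => (x.1.1.1, x.2))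
        (fun x => x.1.1.2)) (fun x => g x.1) = mar (Pd Q 1) g := fun g =>
    xat_fst (fun x : ((U × U) × U) × U => x.1.1.2) hP hm g
  have hl := zve hE
    (P := xat (Pd Q 1) (fun x => (x.1.2, x.1.1.1.1.2.2)) (W3 Q) (fun x => (x.1.1.1, x.2))
      (fun x => x.1.1.2)) (z := fun x => x.1.1.1.1.1.1.2) (v := fun x => x.1.1.1.1.1.2.2)
    (u := fun x => x.1.1.2) (fun z0 v0 u0 => by
      rw [← Pd_zvu hE z0 v0 u0]
      exact congrFun (f1 (fun x => ((x.1.1.1.1.1.2, x.1.1.1.1.2.2), x.1.2))) _)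
  have h3 := e1_one hE h2 hl
  obtain ⟨h4, h5⟩ := closeY hE hC hA0 hA1 h2 _ h3
  refine ⟨h4, le_trans ?_ h5⟩
  have e3 : gQ Q = 3 * hQ Q - 2 * aQ Q - h2Q Q := rfl
  have h6 := H222.hB_le hE (1 + 3)
  have h7 := H222.h3_le hE
  rw [e3]
  push_cast
  linarith

end Vale.Agent.P050.H903
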